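import Vale.Agent.P230.Bdl.B1

namespace Vale.Agent.P230.D

open Finset Filter

/-- numerical estimate behind `base_low` -/
theorem num_low : ∃ N₀ : ℕ, ∀ N : ℕ, N₀ ≤ N → ∀ V : ℝ, 0 ≤ V → V ≤ (N:ℝ) / 1000 →
    Real.exp (-V / 2) + (V / 2) ^ (2 * (N / 200) + 1) / ((2 * (N / 200) + 1).factorial : ℝ)
      + (2 + Real.exp (V / 2)) * (Real.exp V * (N * (99/100 : ℝ) ^ N)) ≤
      3 * Real.exp (-V / 2) := by
  have ev2 : ∀ᶠ x : ℝ in atTop, 3 * x ≤ Real.exp ((1 / 1000) * x) := by
    have h := (Real.tendsto_exp_div_pow_atTop 1).comp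
      (tendsto_id.const_mul_atTop (by norm_num : (0 : ℝ) < 1 / 1000))
    have h2 := h.eventually_ge_atTop 3000
    filter_upwards [h2, eventually_gt_atTop 0] with x hx hx0
    simp only [Function.comp, id, pow_one] at hx
    rw [le_div_iff₀ (by positivity)] at hx
    linarith only [hx]
  have ev3 : ∀ᶠ x : ℝ in atTop, (1 : ℝ) ≤ (1 / 1000) * x := by
    filter_upwards [eventually_ge_atTop 1000] with x hx
    linarith
  obtain ⟨x₀, hx₀⟩ := eventually_atTop.1 (ev2.and ev3)
  refine ⟨⌈x₀⌉₊, fun N hN V hV0 hV2 => ?_⟩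
  set x : ℝ := (N : ℝ) with hx
  have hxx : x₀ ≤ x := (Nat.le_ceil x₀).trans (by rw [hx]; exact_mod_cast hN)
  obtain ⟨h2, h3⟩ := hx₀ x hxx
  have hxpos : 0 < x := by linarith only [h3]
  -- second term
  set j := 2 * (N / 200) + 1 with hj
  have hjx : x / 100 - 1 ≤ (j : ℝ) := by
    have : N ≤ 200 * (N / 200) + 199 := by (clear * -; omega)
    have h' : x ≤ 200 * ((N / 200 : ℕ) : ℝ) + 199 := by rw [hx]; exact_mod_cast this
    rw [hj]
    push_cast
    linarith only [h']
  have hB2 : (V / 2) ^ j / (j.factorial : ℝ) ≤ Real.exp (-V / 2) := by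
    have e1 : (V / 2) ^ j / (j.factorial : ℝ)
        = Real.exp (-(j : ℝ)) * ((Real.exp 1 * (V / 2)) ^ j / (j.factorial : ℝ)) := by
      rw [mul_pow, ← Real.exp_nat_mul, mul_one, Real.exp_neg]
      field_simp
    have e2 : (Real.exp 1 * (V / 2)) ^ j / (j.factorial : ℝ) ≤ Real.exp (Real.exp 1 * (V / 2)) :=
      Real.pow_div_factorial_le_exp _ (by positivity) j
    rw [e1]
    calc Real.exp (-(j : ℝ)) * ((Real.exp 1 * (V / 2)) ^ j / (j.factorial : ℝ))
        ≤ Real.exp (-(j : ℝ)) * Real.exp (Real.exp 1 * (V / 2)) := by (clear * - e2; gcongr)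
      _ = Real.exp (-(j : ℝ) + Real.exp 1 * (V / 2)) := by rw [Real.exp_add]
      _ ≤ Real.exp (-V / 2) := by
          apply Real.exp_le_exp.2
          have e3 : Real.exp 1 ≤ 3 := by
            have := Real.exp_one_lt_d9
            linarith only [this]
          have e4 : Real.exp 1 * (V / 2) ≤ 3 * (V / 2) := by (clear * - e3 hV0; gcongr)
          linarith only [h3, hjx, e4, hV2]
  -- third term
  have hB3 : (2 + Real.exp (V / 2)) * (Real.exp V * (x * (99/100 : ℝ) ^ N))
      ≤ Real.exp (-V / 2) := by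
    have e1 : (2 : ℝ) ≤ 2 * Real.exp (V / 2) := by
      have := Real.one_le_exp (show 0 ≤ V / 2 by (clear * - hV0; positivity))
      linarith only [this]
    have e2 : (99/100 : ℝ) ^ N ≤ Real.exp (-(1/100) * x) := by
      have h4 : (99/100 : ℝ) ≤ Real.exp (-(1/100)) := by
        have := Real.add_one_le_exp (-(1/100) : ℝ)
        linarith only [this]
      calc (99/100 : ℝ) ^ N ≤ (Real.exp (-(1/100))) ^ N := by (clear * - h4; gcongr)
        _ = Real.exp (-(1/100) * x) := by
            rw [← Real.exp_nat_mul]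
            congr 1
            rw [hx]; ring
    calc (2 + Real.exp (V / 2)) * (Real.exp V * (x * (99/100 : ℝ) ^ N))
        ≤ (2 * Real.exp (V / 2) + Real.exp (V / 2)) * (Real.exp V * (x * Real.exp (-(1/100) * x))) := by
          (clear * - e1 e2 hxpos; gcongr)
      _ = (3 * x) * Real.exp (V / 2 + V + -(1/100) * x) := by
          rw [Real.exp_add, Real.exp_add]
          ring
      _ ≤ Real.exp ((1 / 1000) * x) * Real.exp (V / 2 + V + -(1/100) * x) := by (clear * - h2; gcongr)
      _ = Real.exp ((1 / 1000) * x + (V / 2 + V + -(1/100) * x)) := by rw [← Real.exp_add]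
      _ ≤ Real.exp (-V / 2) := by
          apply Real.exp_le_exp.2
          linarith only [hV2, h3]
  linarith only [hB2, hB3]

open Classical in
/-- the base estimate for slices of arbitrarily low density -/
theorem base_low : ∃ N₀ : ℕ, ∀ N : ℕ, N₀ ≤ N →
    ∀ K : Set (Fin N → ℝ), NormalizedR K ((N:ℝ)^3) →
    ∀ lam : ℝ, (N:ℝ)^5 ≤ lam → lam ≤ (N:ℝ)^6 → ∀ (p : ℕ) [Fact p.Prime],
    ((intPts K lam).card : ℝ) ≤ 1 / 1000 * N * p →
    ((Finset.univ.filter (fun hu : (Fin N → ZMod p) × ZMod p =>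
      hit p (intPts K lam) hu.1 hu.2 = ∅)).card : ℝ)
      ≤ 3 * Real.exp (-(((intPts K lam).card : ℝ) / p) / 2) * (p:ℝ) ^ (N+1) := by
  obtain ⟨N₁, hN₁⟩ := dep_intPts
  obtain ⟨N₂, hN₂⟩ := num_low
  refine ⟨max (max N₁ N₂) 200, ?_⟩
  intro N hN K hK lam hlam1 hlam2 p _ hp2
  have hN1 : N₁ ≤ N := by omega
  have hN2 : N₂ ≤ N := by omega
  have hN3 : 200 ≤ N := by omega
  have hNr : (200 : ℝ) ≤ N := by exact_mod_cast hN3
  have hp0 : (0 : ℝ) < p := by exact_mod_cast (Fact.out : p.Prime).pos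
  have hcardN : ((intPts K lam).card : ℝ) ≤ N * p := by
    refine hp2.trans ?_
    have : (0 : ℝ) ≤ N * p := by positivity
    linarith only [this]
  have h1 := bad_count' p (intPts K lam) (N / 200) 0 (by omega)
    (fun B hBS hBc hB => hind_of_large hN3 hK hlam1 hlam2 hcardN B hBS hBc hB)
    (N * (99/100 : ℝ) ^ N) (by positivity)
    (fun ρ hρ => hN₁ N hN1 K hK lam hlam1 hlam2 ρ (by omega))
    (((intPts K lam).card : ℝ) / p) rfl
  have hsub : (Finset.univ.filter (fun hu : (Fin N → ZMod p) × ZMod p =>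
      hit p (intPts K lam) hu.1 hu.2 = ∅)) ⊆
      (Finset.univ.filter (fun hu : (Fin N → ZMod p) × ZMod p =>
      ∀ B ⊆ hit p (intPts K lam) hu.1 hu.2, AffInd B → B.card ≤ 0)) := by
    intro hu hhu
    rw [mem_filter] at hhu ⊢
    refine ⟨mem_univ _, fun B hB _ => ?_⟩
    rw [hhu.2, subset_empty] at hB
    rw [hB]
    simp
  have h2 : ((Finset.univ.filter (fun hu : (Fin N → ZMod p) × ZMod p =>
      hit p (intPts K lam) hu.1 hu.2 = ∅)).card : ℝ) ≤
      ((Finset.univ.filter (fun hu : (Fin N → ZMod p) × ZMod p =>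
      ∀ B ⊆ hit p (intPts K lam) hu.1 hu.2, AffInd B → B.card ≤ 0)).card : ℝ) := by
    exact_mod_cast Finset.card_le_card hsub
  refine h2.trans (h1.trans ?_)
  rw [pow_zero, one_mul]
  apply mul_le_mul_of_nonneg_right _ (by positivity)
  exact hN₂ N hN2 (((intPts K lam).card : ℝ) / p) (by positivity)
    (by rw [div_le_iff₀ hp0]; linarith only [hp2])

/-- choosing one good first coordinate for finitely many small bad sets, with variable densities -/
theorem exists_h_var {N : ℕ} {I : Type*} [Fintype I] (p : ℕ) [Fact p.Prime]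
    (bad : I → Finset ((Fin N → ZMod p) × ZMod p)) (ε : I → ℝ) (hε : ∀ i, 0 < ε i)
    (hbad : ∀ i, ((bad i).card : ℝ) ≤ ε i * (p : ℝ) ^ (N + 1)) :
    ∃ h : Fin N → ZMod p, ∀ i,
      ((univ.filter (fun u : ZMod p => (h, u) ∈ bad i)).card : ℝ) ≤ Fintype.card I * ε i * p := by
  classical
  rcases isEmpty_or_nonempty I with hI | hI
  · exact ⟨0, fun i => (hI.false i).elim⟩
  by_contra hcon
  push Not at hcon
  have hp0 : (0 : ℝ) < p := by exact_mod_cast (Fact.out : p.Prime).pos
  have hI0 : (0 : ℝ) < Fintype.card I := by exact_mod_cast Fintype.card_pos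
  have hfib : ∀ i, ((bad i).card : ℝ) = ∑ h : Fin N → ZMod p,
      (((univ.filter (fun u : ZMod p => (h, u) ∈ bad i)).card : ℝ)) := by
    intro i
    rw [← Nat.cast_sum]
    congr 1
    have h1 := Finset.card_eq_sum_card_fiberwise (s := bad i)
      (t := (univ : Finset (Fin N → ZMod p))) (f := fun q => q.1) (fun q _ => by simp)
    rw [h1]
    refine Finset.sum_congr rfl fun h _ => ?_
    refine Finset.card_bij' (fun q _ => q.2) (fun u _ => (h, u)) ?_ ?_ ?_ ?_
    · intro q hq
      simp only [mem_filter] at hq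
      simp only [mem_filter, mem_univ, true_and]
      rw [← hq.2]
      exact hq.1
    · intro u hu
      simp only [mem_filter, mem_univ, true_and] at hu
      simp [hu]
    · intro q hq
      simp only [mem_filter] at hq
      rw [← hq.2]
    · intro u hu
      rfl
  have h1 : ∑ i, ((bad i).card : ℝ) / ε i ≤ Fintype.card I * (p : ℝ) ^ (N + 1) := by
    calc ∑ i, ((bad i).card : ℝ) / ε i ≤ ∑ _i : I, (p : ℝ) ^ (N + 1) := by
          refine Finset.sum_le_sum fun i _ => ?_
          rw [div_le_iff₀ (hε i)]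
          linarith only [hbad i]
      _ = _ := by simp only [sum_const, card_univ, nsmul_eq_mul]
  have h2 : ∑ _h : Fin N → ZMod p, Fintype.card I * (p : ℝ) < ∑ i, ((bad i).card : ℝ) / ε i := by
    simp_rw [hfib, Finset.sum_div]
    rw [Finset.sum_comm]
    apply Finset.sum_lt_sum_of_nonempty univ_nonempty
    intro h _
    obtain ⟨i, hi⟩ := hcon h
    have h3 : (Fintype.card I * (p : ℝ)) <
        ((univ.filter (fun u : ZMod p => (h, u) ∈ bad i)).card : ℝ) / ε i := by
      rw [lt_div_iff₀ (hε i)]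
      linarith only [hi]
    refine h3.trans_le ?_
    exact Finset.single_le_sum (f := fun i =>
      ((univ.filter (fun u : ZMod p => (h, u) ∈ bad i)).card : ℝ) / ε i)
      (fun i _ => div_nonneg (Nat.cast_nonneg _) (hε i).le) (mem_univ i)
  have h3 : ∑ _h : Fin N → ZMod p, Fintype.card I * (p : ℝ) =
      Fintype.card I * (p : ℝ) ^ (N + 1) := by
    simp only [sum_const, card_univ, Fintype.card_pi, ZMod.card, prod_const, Fintype.card_fin,
      nsmul_eq_mul, Nat.cast_pow]
    ring
  rw [h3] at h2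
  linarith only [h1, h2]

end Vale.Agent.P230.D
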