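import Vale.Agent.P230.D.TreeLike

namespace Vale.Agent.P230.D

open Finset

/-- the points `u` such that all the translates `u - x * z 0` over the fibre of `y` are uncovered -/
def fib {t p : ℕ} [NeZero p] (P : Finset (Fin (t + 1) → ℤ)) (U : (Fin (t + 1) → ℤ) → Finset (ZMod p))
    (x : ZMod p) (y : Fin t → ℤ) : Finset (ZMod p) :=
  univ.filter (fun u : ZMod p => ∀ z ∈ P, tl z = y → u - x * (z 0 : ZMod p) ∈ U z)

/-- double counting: the sum over all shifts of the intersection sizes -/
theorem sum_card_inter {p : ℕ} [Fact p.Prime] (A B : Finset (ZMod p)) (a b : ZMod p)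
    (hab : a ≠ b) :
    ∑ x : ZMod p, (univ.filter (fun u : ZMod p => u - x * a ∈ A ∧ u - x * b ∈ B)).card =
      A.card * B.card := by
  classical
  rw [← card_product, ← Finset.card_sigma]
  have hne : b - a ≠ 0 := sub_ne_zero.2 hab.symm
  refine Finset.card_bij' (fun (q : Σ _ : ZMod p, ZMod p) _ => (q.2 - q.1 * a, q.2 - q.1 * b))
    (fun v _ => ⟨(v.1 - v.2) * (b - a)⁻¹, v.1 + (v.1 - v.2) * (b - a)⁻¹ * a⟩) ?_ ?_ ?_ ?_
  · intro q hq
    simp only [mem_sigma, mem_univ, true_and, mem_filter] at hq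
    exact mem_product.2 hq
  · intro v hv
    rw [mem_product] at hv
    simp only [mem_sigma, mem_univ, true_and, mem_filter]
    have e : v.1 + (v.1 - v.2) * (b - a)⁻¹ * a - (v.1 - v.2) * (b - a)⁻¹ * b = v.2 := by
      have : (v.1 - v.2) * (b - a)⁻¹ * (b - a) = v.1 - v.2 := by
        rw [mul_assoc, inv_mul_cancel₀ hne, mul_one]
      linear_combination -this
    constructor
    · rw [add_sub_cancel_right]
      exact hv.1
    · rw [e]
      exact hv.2
  · intro q _
    simp only
    have e : (q.2 - q.1 * a - (q.2 - q.1 * b)) * (b - a)⁻¹ = q.1 := by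
      have : q.2 - q.1 * a - (q.2 - q.1 * b) = q.1 * (b - a) := by ring
      rw [this, mul_assoc, mul_inv_cancel₀ hne, mul_one]
    rw [e]
    simp
  · intro v _
    simp only
    have : (v.1 - v.2) * (b - a)⁻¹ * (b - a) = v.1 - v.2 := by
      rw [mul_assoc, inv_mul_cancel₀ hne, mul_one]
    refine Prod.ext ?_ ?_
    · simp
    · simp only
      linear_combination -this

/-- Markov's inequality for one merging pair -/
theorem merge_bad {p : ℕ} [Fact p.Prime] (A B : Finset (ZMod p)) (a b : ZMod p) (hab : a ≠ b)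
    (α β Mx : ℝ) (hα : 0 ≤ α) (hβ : 0 ≤ β) (hMx : 0 < Mx) (hA : (A.card : ℝ) ≤ α * p)
    (hB : (B.card : ℝ) ≤ β * p) :
    ((univ.filter (fun x : ZMod p => Mx * α * β * p <
      ((univ.filter (fun u : ZMod p => u - x * a ∈ A ∧ u - x * b ∈ B)).card : ℝ))).card : ℝ) * Mx
      < p := by
  classical
  have hp : (0 : ℝ) < p := by exact_mod_cast (Fact.out : p.Prime).pos
  set f : ZMod p → ℝ := fun x =>
    ((univ.filter (fun u : ZMod p => u - x * a ∈ A ∧ u - x * b ∈ B)).card : ℝ) with hf
  have hf0 : ∀ x, 0 ≤ f x := fun x => Nat.cast_nonneg _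
  have hsum : ∑ x, f x ≤ α * β * p * p := by
    have h1 := sum_card_inter A B a b hab
    have h2 : ∑ x, f x = (A.card : ℝ) * B.card := by
      rw [← Nat.cast_mul, ← h1, Nat.cast_sum]
    rw [h2]
    calc (A.card : ℝ) * B.card ≤ (α * p) * (β * p) :=
          mul_le_mul hA hB (Nat.cast_nonneg _) (by positivity)
      _ = _ := by ring
  set bad := univ.filter (fun x : ZMod p => Mx * α * β * p < f x) with hbad
  rcases bad.eq_empty_or_nonempty with h | h
  · rw [h]
    simpa using hp
  · have h1 : ∑ _x ∈ bad, Mx * α * β * p < ∑ x ∈ bad, f x :=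
      Finset.sum_lt_sum_of_nonempty h (fun x hx => (mem_filter.1 hx).2)
    rw [sum_const, nsmul_eq_mul] at h1
    have h2 : ∑ x ∈ bad, f x ≤ ∑ x, f x :=
      Finset.sum_le_sum_of_subset_of_nonneg (subset_univ _) (fun x _ _ => hf0 x)
    have h3 : ((bad.card : ℝ) * Mx) * (α * β * p) < p * (α * β * p) := by
      calc ((bad.card : ℝ) * Mx) * (α * β * p) = bad.card * (Mx * α * β * p) := by ring
        _ < ∑ x ∈ bad, f x := h1
        _ ≤ α * β * p * p := h2.trans hsum
        _ = _ := by ring
    exact lt_of_mul_lt_mul_right h3 (by positivity)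

theorem card_shift {p : ℕ} [NeZero p] (A : Finset (ZMod p)) (c : ZMod p) :
    (univ.filter (fun u : ZMod p => u - c ∈ A)).card = A.card := by
  refine Finset.card_bij' (fun u _ => u - c) (fun v _ => v + c) ?_ ?_ ?_ ?_
  · intro u hu
    exact (mem_filter.1 hu).2
  · intro v hv
    simpa using hv
  · intro u _
    simp
  · intro v _
    simp

/-- one level of the decoupling -/
theorem fib_bad {t p D : ℕ} [Fact p.Prime] (hD : D < p) {P : Finset (Fin (t + 1) → ℤ)}
    (hP : TreeLike D P) (U : (Fin (t + 1) → ℤ) → Finset (ZMod p)) (η : (Fin (t + 1) → ℤ) → ℝ)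
    (hη0 : ∀ z, 0 ≤ η z) (hU : ∀ z ∈ P, ((U z).card : ℝ) ≤ η z * p) (Mx : ℝ) (hMx : 0 < Mx)
    (y : Fin t → ℤ) (hy : y ∈ P.image tl) :
    ((univ.filter (fun x : ZMod p => (∏ z ∈ P.filter (fun z => tl z = y), (Mx * η z)) / Mx * p <
      ((fib P U x y).card : ℝ))).card : ℝ) * Mx < p := by
  classical
  have hp : (0 : ℝ) < p := by exact_mod_cast (Fact.out : p.Prime).pos
  obtain ⟨z, hz, rfl⟩ := mem_image.1 hy
  have hcard := hP.card_fiber (tl z)
  have hz' : z ∈ P.filter (fun w => tl w = tl z) := mem_filter.2 ⟨hz, rfl⟩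
  by_cases h1 : ∃ w ∈ P.filter (fun w => tl w = tl z), w ≠ z
  · obtain ⟨w, hw, hwz⟩ := h1
    have hwP : w ∈ P := (mem_filter.1 hw).1
    have hwt : tl w = tl z := (mem_filter.1 hw).2
    have hset : P.filter (fun w => tl w = tl z) = {z, w} := by
      symm
      apply Finset.eq_of_subset_of_card_le
      · intro v hv
        rw [mem_insert, mem_singleton] at hv
        rcases hv with rfl | rfl
        · exact hz'
        · exact hw
      · rw [card_pair hwz.symm]
        exact hcard
    have h0 : z 0 ≠ w 0 := fun h0 => hwz (eq_of_tl hwt h0.symm)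
    have habs : |z 0 - w 0| ≤ D := (hP.fiber hz hwP hwP hwt.symm hwt.symm).2
    have hne : ((z 0 : ℤ) : ZMod p) ≠ ((w 0 : ℤ) : ZMod p) := by
      intro h
      have h2 : ((z 0 - w 0 : ℤ) : ZMod p) = 0 := by
        push_cast
        rw [h, sub_self]
      rw [ZMod.intCast_zmod_eq_zero_iff_dvd] at h2
      have h3 := Int.eq_zero_of_abs_lt_dvd h2 (lt_of_le_of_lt habs (by exact_mod_cast hD))
      omega
    have hprod : (∏ z ∈ P.filter (fun w => tl w = tl z), (Mx * η z)) / Mx * p =
        Mx * η z * η w * p := by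
      rw [hset, Finset.prod_pair hwz.symm]
      field_simp
    have hfib : ∀ x, fib P U x (tl z) = univ.filter (fun u : ZMod p =>
        u - x * (z 0 : ZMod p) ∈ U z ∧ u - x * (w 0 : ZMod p) ∈ U w) := by
      intro x
      unfold fib
      apply Finset.filter_congr
      intro u _
      constructor
      · intro h
        exact ⟨h z hz rfl, h w hwP hwt⟩
      · rintro ⟨h2, h3⟩ v hv hvt
        have : v ∈ P.filter (fun w => tl w = tl z) := mem_filter.2 ⟨hv, hvt⟩
        rw [hset, mem_insert, mem_singleton] at this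
        rcases this with rfl | rfl
        · exact h2
        · exact h3
    simp only [hprod, hfib]
    exact merge_bad (U z) (U w) _ _ hne (η z) (η w) Mx (hη0 z) (hη0 w) hMx (hU z hz) (hU w hwP)
  · push Not at h1
    have hset : P.filter (fun w => tl w = tl z) = {z} := by
      ext v
      rw [mem_singleton]
      constructor
      · intro hv
        exact h1 v hv
      · rintro rfl
        exact hz'
    have hprod : (∏ z ∈ P.filter (fun w => tl w = tl z), (Mx * η z)) / Mx * p = η z * p := by
      rw [hset, Finset.prod_singleton]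
      field_simp
    have hfib : ∀ x, ((fib P U x (tl z)).card : ℝ) ≤ η z * p := by
      intro x
      refine le_trans ?_ (hU z hz)
      rw [← card_shift (U z) (x * (z 0 : ZMod p))]
      have : fib P U x (tl z) ⊆ univ.filter (fun u : ZMod p => u - x * (z 0 : ZMod p) ∈ U z) := by
        intro u hu
        unfold fib at hu
        rw [mem_filter] at hu ⊢
        exact ⟨mem_univ _, hu.2 z hz rfl⟩
      exact_mod_cast Finset.card_le_card this
    rw [hprod]
    have : (univ.filter (fun x : ZMod p => η z * p < ((fib P U x (tl z)).card : ℝ))) = ∅ := by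
      rw [Finset.filter_eq_empty_iff]
      intro x _
      exact not_lt.2 (hfib x)
    rw [this]
    simpa using hp

/-- Decoupling over a tree-like set, with variable densities: one `g` for finitely many phases. -/
theorem exists_g_treeLike (p : ℕ) [Fact p.Prime] {J : Type*} [Fintype J] (D : ℕ) (hD : D < p)
    (Mx : ℝ) : ∀ {t : ℕ} (P : J → Finset (Fin t → ℤ)) (_ : ∀ j, (P j).Nonempty)
    (_ : ∀ j, TreeLike D (P j)) (U : J → (Fin t → ℤ) → Finset (ZMod p))
    (η : J → (Fin t → ℤ) → ℝ) (_ : ∀ j z, 0 ≤ η j z)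
    (_ : ∀ j, ∀ z ∈ P j, ((U j z).card : ℝ) ≤ η j z * p)
    (_ : ∑ j, ((P j).card : ℝ) ≤ Mx) (_ : ∀ j, (∏ z ∈ P j, (Mx * η j z)) * p < Mx),
    ∃ g : Fin t → ZMod p, ∀ j, ∀ u : ZMod p, ∃ z ∈ P j,
      u - ∑ a, g a * (z a : ZMod p) ∉ U j z := by
  classical
  have hp : (0 : ℝ) < p := by exact_mod_cast (Fact.out : p.Prime).pos
  intro t
  induction t with
  | zero =>
    intro P hne hP U η hη0 hU hMx hprod
    refine ⟨0, fun j u => ?_⟩
    obtain ⟨z, hz⟩ := hne j
    refine ⟨z, hz, ?_⟩
    have hPz : P j = {z} := by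
      rw [Finset.eq_singleton_iff_unique_mem]
      exact ⟨hz, fun w _ => Subsingleton.elim _ _⟩
    have h1 := hprod j
    rw [hPz, Finset.prod_singleton] at h1
    have hMx0 : 0 < Mx := by
      have h2 : ((P j).card : ℝ) ≤ ∑ j, ((P j).card : ℝ) :=
        Finset.single_le_sum (f := fun j => ((P j).card : ℝ)) (fun i _ => Nat.cast_nonneg _)
          (mem_univ j)
      have h3 : (0 : ℝ) < (P j).card := by
        have := Finset.card_pos.2 (hne j)
        exact_mod_cast this
      linarith
    have h2 : η j z * p < 1 := by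
      have : Mx * (η j z * p) < Mx * 1 := by linarith
      exact lt_of_mul_lt_mul_left this hMx0.le
    have h3 : ((U j z).card : ℝ) < 1 := (hU j z hz).trans_lt h2
    have h4 : (U j z).card < 1 := by exact_mod_cast h3
    have h5 : U j z = ∅ := Finset.card_eq_zero.1 (by omega)
    rw [h5]
    exact Finset.notMem_empty _
  | succ t ih =>
    intro P hne hP U η hη0 hU hMx hprod
    rcases isEmpty_or_nonempty J with hJ | hJ
    · exact ⟨0, fun j => (hJ.false j).elim⟩
    have hMx0 : 0 < Mx := by
      obtain ⟨j⟩ := hJ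
      have h2 : ((P j).card : ℝ) ≤ ∑ j, ((P j).card : ℝ) :=
        Finset.single_le_sum (f := fun j => ((P j).card : ℝ)) (fun i _ => Nat.cast_nonneg _)
          (mem_univ j)
      have h3 : (0 : ℝ) < (P j).card := by
        have := Finset.card_pos.2 (hne j)
        exact_mod_cast this
      linarith
    set P' : J → Finset (Fin t → ℤ) := fun j => (P j).image tl with hP'
    set η' : J → (Fin t → ℤ) → ℝ := fun j y =>
      (∏ z ∈ (P j).filter (fun z => tl z = y), (Mx * η j z)) / Mx with hη'
    set Idx : Finset (Σ _ : J, (Fin t → ℤ)) := univ.sigma P' with hIdx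
    have hIdxcard : (Idx.card : ℝ) ≤ Mx := by
      refine le_trans ?_ hMx
      rw [hIdx, Finset.card_sigma]
      push_cast
      refine Finset.sum_le_sum fun j _ => ?_
      exact_mod_cast Finset.card_image_le
    have hIdxne : Idx.Nonempty := by
      obtain ⟨j⟩ := hJ
      obtain ⟨z, hz⟩ := hne j
      exact ⟨⟨j, tl z⟩, mem_sigma.2 ⟨mem_univ _, mem_image.2 ⟨z, hz, rfl⟩⟩⟩
    set bad : (Σ _ : J, (Fin t → ℤ)) → Finset (ZMod p) := fun q =>
      univ.filter (fun x : ZMod p => η' q.1 q.2 * p < ((fib (P q.1) (U q.1) x q.2).card : ℝ))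
      with hbad
    have hbadlt : ∀ q ∈ Idx, ((bad q).card : ℝ) * Mx < p := by
      intro q hq
      rw [hIdx, mem_sigma] at hq
      exact fib_bad hD (hP q.1) (U q.1) (η q.1) (hη0 q.1) (hU q.1) Mx hMx0 q.2 hq.2
    have hlt : ((Idx.biUnion bad).card : ℝ) < p := by
      have h1 : ((Idx.biUnion bad).card : ℝ) ≤ ∑ q ∈ Idx, ((bad q).card : ℝ) := by
        exact_mod_cast card_biUnion_le
      have h2 : (∑ q ∈ Idx, ((bad q).card : ℝ)) * Mx < Idx.card * p := by
        rw [sum_mul]
        calc ∑ q ∈ Idx, ((bad q).card : ℝ) * Mx < ∑ _q ∈ Idx, (p : ℝ) :=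
              Finset.sum_lt_sum_of_nonempty hIdxne hbadlt
          _ = _ := by rw [sum_const, nsmul_eq_mul]
      have h3 : (Idx.card : ℝ) * p ≤ Mx * p := by gcongr
      have h4 : (∑ q ∈ Idx, ((bad q).card : ℝ)) * Mx < p * Mx := by linarith
      exact h1.trans_lt (lt_of_mul_lt_mul_right h4 hMx0.le)
    obtain ⟨x, hx⟩ : ∃ x : ZMod p, x ∉ Idx.biUnion bad := by
      by_contra hcon
      push Not at hcon
      have : (Idx.biUnion bad) = univ := eq_univ_iff_forall.mpr hcon
      rw [this, card_univ, ZMod.card] at hlt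
      exact lt_irrefl _ hlt
    obtain ⟨g, hg⟩ := ih P' (fun j => (hne j).image _) (fun j => (hP j).image_tl)
      (fun j y => fib (P j) (U j) x y) η' (fun j y => by
        rw [hη']
        exact div_nonneg (Finset.prod_nonneg fun z _ => mul_nonneg hMx0.le (hη0 j z)) hMx0.le)
      (fun j y hy => by
        by_contra hcon
        push Not at hcon
        refine hx (mem_biUnion.2 ⟨⟨j, y⟩, mem_sigma.2 ⟨mem_univ _, hy⟩, ?_⟩)
        rw [hbad, mem_filter]
        exact ⟨mem_univ _, hcon⟩)
      (by
        refine le_trans ?_ hMx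
        refine Finset.sum_le_sum fun j _ => ?_
        exact_mod_cast Finset.card_image_le)
      (fun j => by
        refine lt_of_le_of_lt (le_of_eq ?_) (hprod j)
        congr 1
        rw [← Finset.prod_fiberwise_of_maps_to (g := tl) (t := P' j)
          (fun z hz => mem_image_of_mem _ hz)]
        refine Finset.prod_congr rfl fun y _ => ?_
        rw [hη']
        field_simp)
    refine ⟨Fin.cons x g, fun j u => ?_⟩
    obtain ⟨y, hy, hy'⟩ := hg j u
    unfold fib at hy'
    rw [mem_filter] at hy'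
    push Not at hy'
    obtain ⟨z, hz, hzy, hzU⟩ := hy' (mem_univ _)
    refine ⟨z, hz, ?_⟩
    convert hzU using 2
    rw [Fin.sum_univ_succ, Fin.cons_zero, ← hzy]
    simp only [Fin.cons_succ, tl]
    ring

end Vale.Agent.P230.D
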