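import Vale.Agent.P230.D.Stmt
import Vale.Agent.P230.D.Base
import Vale.Agent.P230.D.Decouple

/-!
# D4: the step theorem with a Gaussian profile and tree-like lattices
-/

namespace Vale.Agent.P230.D

open MeasureTheory Finset

/-- the numerical conditions for the step with profile; `c₂ = 1/4000` -/
structure StepNum2 (N t n D : ℕ) (m L ρ : ℝ) : Prop where
  hNn : N + t = n
  ht : 1 ≤ t
  hn : 2 ≤ n
  hN : 1 ≤ N
  hm : 0 < m
  hρ : 0 < ρ
  hL : 1 < L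
  hL1 : 2 * (n : ℝ) ^ 5 / (N : ℝ) ^ 3 + 1 ≤ L
  hL2 : L ≤ (n : ℝ) ^ 5 * ρ / 2 - 1
  hlow : 2 / 3 * ((n : ℝ) ^ 5) ^ N ≤ ((1 - 1 / L) * ((n : ℝ) ^ 5 - (N : ℝ) ^ 3 / 2)) ^ N
  hup : ((n : ℝ) ^ 5 + (N : ℝ) ^ 3 / 2) ^ N ≤ 4 / 3 * ((n : ℝ) ^ 5) ^ N
  hlam1 : (N : ℝ) ^ 5 ≤ 2 * (n : ℝ) ^ 5
  hlam2 : 2 * (n : ℝ) ^ 5 ≤ (N : ℝ) ^ 6
  hp3 : 3 * (1 / 4000) * N * (D + 3) < ((n : ℝ) ^ 5 * (ρ / 2)) ^ N
  hunion : (3 * ((2 * (n : ℝ)) ^ t) ^ 2) ^ (2 ^ t) * Real.exp (-(1 / 4000 * N * m / 2)) *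
    ((2 * (n : ℝ) ^ 5) ^ N * Real.exp (t / 2)) < 3 / 2 * (1 / 4000) * N

open Classical in
/-- the base estimate in dimension `N`, for arbitrarily low density -/
def BaseLow (N : ℕ) : Prop :=
  ∀ K : Set (Fin N → ℝ), NormalizedR K ((N:ℝ)^3) →
    ∀ lam : ℝ, (N:ℝ)^5 ≤ lam → lam ≤ (N:ℝ)^6 → ∀ (p : ℕ) [Fact p.Prime],
    ((intPts K lam).card : ℝ) ≤ 1 / 1000 * N * p →
    ((Finset.univ.filter (fun hu : (Fin N → ZMod p) × ZMod p =>
      hit p (intPts K lam) hu.1 hu.2 = ∅)).card : ℝ)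
      ≤ 3 * Real.exp (-(((intPts K lam).card : ℝ) / p) / 2) * (p:ℝ) ^ (N+1)

theorem baseLow : ∃ N₀ : ℕ, ∀ N ≥ N₀, BaseLow N := by
  obtain ⟨N₀, h⟩ := base_low
  exact ⟨N₀, fun N hN => h N hN⟩

theorem prof_le_one {t : ℕ} {b : Fin t → ℝ} (hb : Ann t b) : prof t b ≤ 1 := by
  unfold prof
  rw [Real.exp_le_one_iff]
  linarith [hb.1]

theorem prof_pos {t : ℕ} (b : Fin t → ℝ) : 0 < prof t b := Real.exp_pos _

theorem exp_le_prof {t : ℕ} {b : Fin t → ℝ} (hb : Ann t b) : Real.exp (-(t / 2)) ≤ prof t b := by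
  unfold prof
  apply Real.exp_le_exp.2
  linarith [hb.2]

/-- the finite data attached to one slice -/
theorem slice_data2 {N t n D : ℕ} {m L ρ : ℝ} (hs : StepNum2 N t n D m L ρ)
    (T : Set (Fin N → ℝ)) (hT : Convex ℝ T) (hTc : IsCompact T)
    (hTb : ∀ x ∈ T, ∀ i, |x i| ≤ 1)
    (hx₀ : ∃ x₀ : Fin N → ℝ, ∀ x : Fin N → ℝ, (∀ i, 0 ≤ x i ∧ x i ≤ ρ) → x₀ + x ∈ T)
    (g : ℝ) (hg : 0 < g) (hg1 : ENNReal.ofReal g ≤ volume T)
    (hg2 : volume T ≤ ENNReal.ofReal (2 ^ N * g)) :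
    ∃ (Q : Set (Fin N → ℝ)) (w : Fin N → ℤ), NormalizedR Q ((N : ℝ) ^ 3) ∧
      (∀ z ∈ intPts Q (2 * (n : ℝ) ^ 5), ∀ f : Fin N → ℝ, (∀ i, 0 ≤ f i ∧ f i ≤ 1) →
        (fun i => ((z i : ℝ) + w i + f i) / (n : ℝ) ^ 5) ∈ T) ∧
      2 / 3 * (((n : ℝ) ^ 5) ^ N * g) ≤ ((intPts Q (2 * (n : ℝ) ^ 5)).card : ℝ) ∧
      ((intPts Q (2 * (n : ℝ) ^ 5)).card : ℝ) ≤ 4 / 3 * (((n : ℝ) ^ 5) ^ N * g) := by
  obtain ⟨x₀, hx₀⟩ := hx₀
  have hn0 : (2 : ℝ) ≤ n := by exact_mod_cast hs.hn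
  have hN0 : (1 : ℝ) ≤ N := by exact_mod_cast hs.hN
  have hNn : (N : ℝ) ≤ n := by
    have := hs.hNn
    have h1 : N ≤ n := by omega
    exact_mod_cast h1
  have hX : ((n ^ 5 : ℕ) : ℝ) = (n : ℝ) ^ 5 := by push_cast; rfl
  have h1 := slice_body hs.hN (n ^ 5) (Nat.one_le_pow _ _ (by have := hs.hn; omega))
    ρ ((N : ℝ) ^ 3) L hs.hρ (one_le_pow₀ hN0) ?_ hs.hL ?_ ?_
    T hT hTc hTb x₀ hx₀ g hg hg1 hg2
  · rw [hX] at h1
    obtain ⟨Q, w, hQ, hin, hlo, hup⟩ := h1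
    refine ⟨Q, w, hQ, hin, ?_, ?_⟩
    · refine le_trans ?_ hlo
      have := hs.hlow
      calc 2 / 3 * (((n : ℝ) ^ 5) ^ N * g) = (2 / 3 * ((n : ℝ) ^ 5) ^ N) * g := by ring
        _ ≤ _ := by (clear * - this hg; gcongr)
    · refine hup.trans ?_
      have := hs.hup
      calc _ ≤ (4 / 3 * ((n : ℝ) ^ 5) ^ N) * g := by (clear * - this hg; gcongr)
        _ = _ := by ring
  · rw [hX]
    calc (N : ℝ) ^ 3 ≤ (n : ℝ) ^ 3 := by (clear * - hN0 hNn; gcongr)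
      _ ≤ (n : ℝ) ^ 5 := pow_le_pow_right₀ (by linarith only [hn0]) (by norm_num)
  · rw [hX]
    exact hs.hL1
  · rw [hX]
    exact hs.hL2

/-- the choice of the prime -/
theorem choose_prime2 {N t n D : ℕ} {m L ρ : ℝ} (hs : StepNum2 N t n D m L ρ)
    (g : ℝ) (h1 : (ρ / 2) ^ N ≤ g) (h2 : g ≤ 2 ^ N * Real.exp (t / 2)) :
    ∃ p : ℕ, p.Prime ∧ 3 / 2 * (1 / 4000) * N * p ≤ ((n : ℝ) ^ 5) ^ N * g ∧
      ((n : ℝ) ^ 5) ^ N * g < 3 * (1 / 4000) * N * p ∧ 3 < p ∧ D < p ∧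
      (3 * ((2 * (n : ℝ)) ^ t) ^ 2) ^ (2 ^ t) * Real.exp (-(1 / 4000 * N * m / 2)) * p < 1 := by
  have hn0 : (2 : ℝ) ≤ n := by exact_mod_cast hs.hn
  have hn1 : (0 : ℝ) < n := by linarith only [hn0]
  have hN0 : (1 : ℝ) ≤ N := by exact_mod_cast hs.hN
  have hρ := hs.hρ
  have hcN : (0 : ℝ) < 1 / 4000 * N := by positivity
  have hD0 : (0 : ℝ) ≤ D := Nat.cast_nonneg _
  have hlow : ((n : ℝ) ^ 5 * (ρ / 2)) ^ N ≤ ((n : ℝ) ^ 5) ^ N * g := by
    rw [mul_pow]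
    (clear * - h1 hn0; gcongr)
  have h3 := hs.hp3
  have h3' : 3 * (1 / 4000) * (N : ℝ) * (D + 3) < ((n : ℝ) ^ 5) ^ N * g := lt_of_lt_of_le h3 hlow
  obtain ⟨p, hp, hp1, hp2⟩ := exists_prime_real (((n : ℝ) ^ 5) ^ N * g / (3 / 2 * (1 / 4000) * N)) (by
    rw [le_div_iff₀ (by positivity)]
    refine le_trans ?_ h3'.le
    have : (0 : ℝ) ≤ 1 / 4000 * N * D := by positivity
    nlinarith only [this, hcN])
  rw [div_div, div_lt_iff₀ (by positivity)] at hp1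
  rw [le_div_iff₀ (by positivity)] at hp2
  have h4 : ((n : ℝ) ^ 5) ^ N * g < 3 * (1 / 4000) * N * p := by
    linarith only [hp1]
  have h5 : (D : ℝ) + 3 < p := by
    have : 3 * (1 / 4000) * (N : ℝ) * (D + 3) < 3 * (1 / 4000) * N * p := h3'.trans h4
    exact lt_of_mul_lt_mul_left this (by positivity)
  have h5' : D + 3 < p := by exact_mod_cast h5
  refine ⟨p, hp, by linarith only [hp2], h4, by omega, by omega, ?_⟩
  have h7 := hs.hunion
  have h8 : 3 / 2 * (1 / 4000) * N * p ≤ (2 * (n : ℝ) ^ 5) ^ N * Real.exp (t / 2) := by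
    calc 3 / 2 * (1 / 4000) * N * p ≤ ((n : ℝ) ^ 5) ^ N * g := by linarith only [hp2]
      _ ≤ ((n : ℝ) ^ 5) ^ N * (2 ^ N * Real.exp (t / 2)) := by (clear * - h2 hn0; gcongr)
      _ = _ := by
        rw [← mul_assoc, ← mul_pow]
        congr 2
        ring
  set Z : ℝ := (3 * ((2 * (n : ℝ)) ^ t) ^ 2) ^ (2 ^ t) * Real.exp (-(1 / 4000 * N * m / 2)) with hZ
  have hZ0 : 0 ≤ Z := by (clear * - hn0; positivity)
  have h9 : (3 / 2 * (1 / 4000) * (N : ℝ)) * (Z * p) < (3 / 2 * (1 / 4000) * N) * 1 := by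
    calc (3 / 2 * (1 / 4000) * (N : ℝ)) * (Z * p)
        = Z * (3 / 2 * (1 / 4000) * N * p) := by ring
      _ ≤ Z * ((2 * (n : ℝ) ^ 5) ^ N * Real.exp (t / 2)) := by
        apply mul_le_mul_of_nonneg_left h8 hZ0
      _ < _ := by linarith only [h7]
  exact lt_of_mul_lt_mul_left h9 (by positivity)

/-- the covering argument -/
theorem step_cover2 {N t n : ℕ} (hn2 : 2 ≤ n)
    (K : Set ((Fin N → ℝ) × (Fin t → ℝ))) (A : Set (Fin t → ℝ))
    (T : (Fin t → ℝ) → Set (Fin N → ℝ)) (hTne : ∀ b ∈ A, (T b).Nonempty)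
    (hkey : ∀ b ∈ A, ∀ a ∈ A, ∀ x ∈ T b, ∀ x' ∈ T a,
        (x + (1 / (n : ℝ)) • x', b + (1 / (n : ℝ)) • a) ∈ K)
    (ML : Matrix (Fin t) (Fin t) ℝ) (hzcov : ∀ y : Fin t → ℝ, ∃ ζ : Fin t → ℤ,
      y + ML.mulVec (fun a => (ζ a : ℝ)) ∈ A)
    (P : (Fin t → Fin n) → Finset (Fin t → ℤ))
    (hz : ∀ j, ∀ z ∈ P j, ML.mulVec (fun a => ((j a : ℕ) : ℝ) / n) +
      ML.mulVec (fun a => (z a : ℝ)) ∈ A)
    (Q : (Fin t → Fin n) → (Fin t → ℤ) → Set (Fin N → ℝ))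
    (w : (Fin t → Fin n) → (Fin t → ℤ) → Fin N → ℤ)
    (hin : ∀ j, ∀ z ∈ P j, ∀ s ∈ intPts (Q j z) (2 * (n : ℝ) ^ 5), ∀ f : Fin N → ℝ,
      (∀ l, 0 ≤ f l ∧ f l ≤ 1) → (fun l => ((s l : ℝ) + w j z l + f l) / (n : ℝ) ^ 5) ∈
        T (ML.mulVec (fun a => ((j a : ℕ) : ℝ) / n) + ML.mulVec (fun a => (z a : ℝ))))
    (p : ℕ) (h : Fin N → ZMod p) (g : Fin t → ZMod p)
    (hgood : ∀ j, ∀ u : ZMod p, ∃ z ∈ P j, (hit p (intPts (Q j z) (2 * (n : ℝ) ^ 5)) h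
      (u - ∑ a, g a * (z a : ZMod p) - ∑ a, h a * (w j z a : ZMod p))).Nonempty)
    (y : Fin N → ℝ) (y' : Fin t → ℝ) :
    ∃ (s : Fin N → ℤ) (ζ : Fin t → ℤ),
      ((fun a => y a + (s a : ℝ) / (n : ℝ) ^ 5),
        (y' + ML.mulVec (fun a => (ζ a : ℝ)))) ∈ K ∧
      ∑ a, h a * (s a : ZMod p) + ∑ a, g a * (ζ a : ZMod p) = 0 := by
  classical
  have hnpos : (0 : ℝ) < n := by
    have : 0 < n := by omega
    exact_mod_cast this
  have hn5 : (0 : ℝ) < (n : ℝ) ^ 5 := by positivity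
  obtain ⟨z₀, hz₀⟩ := hzcov ((n : ℝ) • y')
  set a : Fin t → ℝ := (n : ℝ) • y' + ML.mulVec (fun l => (z₀ l : ℝ)) with ha
  have hnz : (0 : ℤ) < n := by exact_mod_cast (by omega : 0 < n)
  set j : Fin t → Fin n := fun l => ⟨((-z₀ l) % n).toNat, by
    have h1 := Int.emod_lt_of_pos (-z₀ l) hnz
    have h2 := Int.emod_nonneg (-z₀ l) hnz.ne'
    omega⟩ with hj
  set z' : Fin t → ℤ := fun l => (-z₀ l) / n with hz'
  have hdecomp : ∀ l, -(z₀ l : ℝ) = ((j l : ℕ) : ℝ) + n * (z' l : ℝ) := by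
    intro l
    have h1 : -z₀ l = (((j l : ℕ) : ℤ)) + n * z' l := by
      have h2 := Int.emod_nonneg (-z₀ l) hnz.ne'
      have h3 := Int.emod_add_mul_ediv (-z₀ l) n
      rw [hj, hz']
      simp only
      rw [Int.toNat_of_nonneg h2]
      exact h3.symm
    have h4 : ((-z₀ l : ℤ) : ℝ) = (((((j l : ℕ) : ℤ)) + n * z' l : ℤ) : ℝ) := by rw [h1]
    push_cast at h4
    exact h4
  obtain ⟨xa, hxa⟩ := hTne a hz₀
  set e : Fin N → ℤ := fun l => ⌊(n : ℝ) ^ 5 * (y l - xa l / n)⌋ with he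
  set f : Fin N → ℝ := fun l => Int.fract ((n : ℝ) ^ 5 * (y l - xa l / n)) with hf
  have hef : ∀ l, (e l : ℝ) + f l = (n : ℝ) ^ 5 * (y l - xa l / n) := by
    intro l
    exact Int.floor_add_fract _
  obtain ⟨z, hzP, s, hs'⟩ := hgood j
    (∑ l, h l * (e l : ZMod p) + ∑ l, g l * (z' l : ZMod p))
  rw [hit, mem_filter] at hs'
  refine ⟨fun l => s l + w j z l - e l, fun l => z l - z' l, ?_, ?_⟩
  · have h1 := hin j z hzP s hs'.1 f
      (fun l => ⟨Int.fract_nonneg _, (Int.fract_lt_one _).le⟩)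
    have h2 := hkey _ (hz j z hzP) a hz₀ _ h1 xa hxa
    convert h2 using 1
    ext l
    · simp only [Pi.add_apply, Pi.smul_apply, smul_eq_mul]
      have h3 := hef l
      push_cast
      have h4 : f l = (n : ℝ) ^ 5 * (y l - xa l / n) - e l := by linarith only [h3]
      rw [h4]
      field_simp
      ring
    · have h5 : (fun l => (((z l - z' l : ℤ)) : ℝ)) =
          (fun l => ((j l : ℕ) : ℝ) / n) + (fun l => (z l : ℝ)) +
            (1 / (n : ℝ)) • (fun l => (z₀ l : ℝ)) := by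
        funext l
        have := hdecomp l
        simp only [Pi.add_apply, Pi.smul_apply, smul_eq_mul]
        push_cast
        have h6 : (z₀ l : ℝ) = -(((j l : ℕ) : ℝ) + n * (z' l : ℝ)) := by linarith only [this]
        rw [h6]
        field_simp
        ring
      rw [h5, Matrix.mulVec_add, Matrix.mulVec_add, Matrix.mulVec_smul, ha]
      simp only [Pi.add_apply, Pi.smul_apply, smul_eq_mul]
      field_simp
      ring
  · have h1 := hs'.2
    push_cast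
    simp only [mul_add, mul_sub, sum_add_distrib, sum_sub_distrib]
    rw [h1]
    ring


/-- the weighted product over a tree-like set -/
theorem prod_bound {t : ℕ} (P : Finset (Fin t → ℤ)) (hcard : P.card ≤ 2 ^ t) (A c m : ℝ)
    (hA : 1 ≤ A) (θ : (Fin t → ℤ) → ℝ) (hc : 0 ≤ c) (hm : m ≤ ∑ z ∈ P, θ z) :
    ∏ z ∈ P, (A * Real.exp (-(c * θ z / 2))) ≤ A ^ (2 ^ t) * Real.exp (-(c * m / 2)) := by
  rw [Finset.prod_mul_distrib, Finset.prod_const, ← Real.exp_sum]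
  apply mul_le_mul
  · exact pow_le_pow_right₀ hA hcard
  · apply Real.exp_le_exp.2
    rw [Finset.sum_neg_distrib, ← Finset.sum_div, ← Finset.mul_sum]
    have : c * m ≤ c * ∑ z ∈ P, θ z := mul_le_mul_of_nonneg_left hm hc
    linarith
  · positivity
  · positivity

/-- **D4**, the step theorem -/
theorem step2 {N t n D : ℕ} {m L ρ W : ℝ} (hs : StepNum2 N t n D m L ρ) (hbase : BaseLow N)
    (hW : 0 ≤ W) (hball : BallData2 N t n ρ W)
    (ML : Matrix (Fin t) (Fin t) ℝ) (hML : ML.det ≠ 0) (hlat : LatticeData t D m ML) :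
    Cov n 0 (3 * (1 / 4000) * N * W / |ML.det|) := by
  classical
  have hNn := hs.hNn
  subst hNn
  set n := N + t with hn
  have hn2 := hs.hn
  have hnpos : (0 : ℝ) < n := by
    have : 0 < n := by (clear * - hn2; omega)
    exact_mod_cast this
  have hn5 : (0 : ℝ) < (n : ℝ) ^ 5 := by (clear * - hnpos; positivity)
  have hN0 : (1 : ℝ) ≤ N := by exact_mod_cast hs.hN
  intro K₀ hK₀c hK₀k hK₀i
  obtain ⟨A₀, v₀, T, g, hA₀, hg, hT, hvol, hkey⟩ := hball K₀ hK₀c hK₀k hK₀i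
  apply CovFor.affine A₀ v₀ hA₀
  set K : Set (Fin n → ℝ) := {x : Fin n → ℝ | A₀.mulVec x + v₀ ∈ K₀} with hK
  set Kp : Set ((Fin N → ℝ) × (Fin t → ℝ)) := {q | Fin.append q.1 q.2 ∈ K} with hKp
  set A : Set (Fin t → ℝ) := {b | Ann t b} with hA
  choose P hPtree hPann hPsum using fun j : Fin t → Fin n =>
    hlat (ML.mulVec (fun a => ((j a : ℕ) : ℝ) / n))
  have hne : ∀ y : Fin t → ℝ, ∀ P : Finset (Fin t → ℤ),
      m ≤ ∑ z ∈ P, prof t (fun i => y i + ML.mulVec (fun a => (z a : ℝ)) i) → P.Nonempty := by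
    intro y P hP
    rw [Finset.nonempty_iff_ne_empty]
    rintro rfl
    have := hs.hm
    rw [Finset.sum_empty] at hP
    linarith
  have hPne : ∀ j, (P j).Nonempty := fun j => hne _ _ (hPsum j)
  have hzcov : ∀ y : Fin t → ℝ, ∃ ζ : Fin t → ℤ, y + ML.mulVec (fun a => (ζ a : ℝ)) ∈ A := by
    intro y
    obtain ⟨P, _, hP2, hP3⟩ := hlat y
    obtain ⟨z, hz⟩ := hne y P hP3
    exact ⟨z, hP2 z hz⟩
  -- the position of a lattice point
  set pt : (Fin t → Fin n) → (Fin t → ℤ) → (Fin t → ℝ) := fun j z =>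
    ML.mulVec (fun a => ((j a : ℕ) : ℝ) / n) + ML.mulVec (fun a => (z a : ℝ)) with hpt
  have hz : ∀ j, ∀ z ∈ P j, pt j z ∈ A := fun j z hz => hPann j z hz
  have hθsum : ∀ j, m ≤ ∑ z ∈ P j, prof t (pt j z) := fun j => hPsum j
  have hdata : ∀ (j : Fin t → Fin n) (z : Fin t → ℤ),
      ∃ (Q : Set (Fin N → ℝ)) (w : Fin N → ℤ), z ∈ P j → (NormalizedR Q ((N : ℝ) ^ 3) ∧
      (∀ s ∈ intPts Q (2 * (n : ℝ) ^ 5), ∀ f : Fin N → ℝ, (∀ l, 0 ≤ f l ∧ f l ≤ 1) →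
        (fun l => ((s l : ℝ) + w l + f l) / (n : ℝ) ^ 5) ∈ T (pt j z)) ∧
      2 / 3 * (((n : ℝ) ^ 5) ^ N * (g * prof t (pt j z))) ≤
        ((intPts Q (2 * (n : ℝ) ^ 5)).card : ℝ) ∧
      ((intPts Q (2 * (n : ℝ) ^ 5)).card : ℝ) ≤
        4 / 3 * (((n : ℝ) ^ 5) ^ N * (g * prof t (pt j z)))) := by
    intro j z
    by_cases hzP : z ∈ P j
    · obtain ⟨h1, h2, h3, h4, h5, h6⟩ := hT _ (hz j z hzP)
      obtain ⟨Q, w, hQ⟩ := slice_data2 hs _ h1 h2 h3 h4 (g * prof t (pt j z))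
        (mul_pos hg (prof_pos _)) h5 h6
      exact ⟨Q, w, fun _ => hQ⟩
    · exact ⟨∅, 0, fun h => absurd h hzP⟩
  choose Q w hQw using hdata
  -- a point of the annulus
  obtain ⟨b₀, hb₀⟩ : ∃ b, b ∈ A := by
    obtain ⟨ζ, hζ⟩ := hzcov 0
    exact ⟨_, hζ⟩
  have hgb : (ρ / 2) ^ N ≤ g ∧ g ≤ 2 ^ N * Real.exp (t / 2) := by
    obtain ⟨h1, h2, h3, h4, h5, h6⟩ := hT b₀ hb₀
    obtain ⟨h7, h8⟩ := g_boundsT hs.hρ _ h3 h4 (g * prof t b₀) (mul_pos hg (prof_pos _)) h5 h6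
    constructor
    · refine h7.trans ?_
      have := prof_le_one hb₀
      calc g * prof t b₀ ≤ g * 1 := by gcongr
        _ = g := mul_one _
    · have h9 := exp_le_prof hb₀
      have h10 : g * Real.exp (-(t / 2)) ≤ 2 ^ N := by
        refine le_trans ?_ h8
        gcongr
      have h11 : g = (g * Real.exp (-(t / 2))) * Real.exp (t / 2) := by
        rw [mul_assoc, ← Real.exp_add]
        simp
      rw [h11]
      gcongr
  obtain ⟨p, hp, hp1, hp2, hp3, hpD, hpη⟩ := choose_prime2 hs g hgb.1 hgb.2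
  have hfact : Fact p.Prime := ⟨hp⟩
  have hp0 : (0 : ℝ) < p := by exact_mod_cast hp.pos
  -- densities
  have hQcard : ∀ j, ∀ z ∈ P j, 1 / 4000 * N * prof t (pt j z) ≤
      ((intPts (Q j z) (2 * (n : ℝ) ^ 5)).card : ℝ) / p := by
    intro j z hzP
    rw [le_div_iff₀ hp0]
    refine le_trans ?_ (hQw j z hzP).2.2.1
    have h1 := prof_pos (pt j z)
    calc 1 / 4000 * N * prof t (pt j z) * p
        = 2 / 3 * (3 / 2 * (1 / 4000) * N * p * prof t (pt j z)) := by ring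
      _ ≤ 2 / 3 * (((n : ℝ) ^ 5) ^ N * g * prof t (pt j z)) := by gcongr
      _ = _ := by ring
  have hQcard2 : ∀ j, ∀ z ∈ P j, ((intPts (Q j z) (2 * (n : ℝ) ^ 5)).card : ℝ) ≤
      1 / 1000 * N * p := by
    intro j z hzP
    refine ((hQw j z hzP).2.2.2).trans ?_
    have h1 := prof_le_one (hz j z hzP)
    have h2 : (((n : ℝ) ^ 5) ^ N * (g * prof t (pt j z))) ≤ ((n : ℝ) ^ 5) ^ N * (g * 1) := by
      gcongr
    linarith only [h2, hp2]
  -- the bad sets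
  set I := (Σ j : (Fin t → Fin n), {z // z ∈ P j}) with hI
  set bad : I → Finset ((Fin N → ZMod p) × ZMod p) := fun i =>
    univ.filter (fun hu : (Fin N → ZMod p) × ZMod p =>
      hit p (intPts (Q i.1 i.2.1) (2 * (n : ℝ) ^ 5)) hu.1 hu.2 = ∅) with hbaddef
  set ε : I → ℝ := fun i => 3 * Real.exp (-(1 / 4000 * N * prof t (pt i.1 i.2.1) / 2)) with hε
  have hbad : ∀ i, ((bad i).card : ℝ) ≤ ε i * (p : ℝ) ^ (N + 1) := by
    rintro ⟨j, z, hzP⟩
    have h1 := hbase (Q j z) (hQw j z hzP).1 (2 * (n : ℝ) ^ 5) hs.hlam1 hs.hlam2 p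
      (hQcard2 j z hzP)
    have h2 : Real.exp (-(((intPts (Q j z) (2 * (n : ℝ) ^ 5)).card : ℝ) / p) / 2) ≤
        Real.exp (-(1 / 4000 * N * prof t (pt j z) / 2)) := by
      apply Real.exp_le_exp.2
      have := hQcard j z hzP
      linarith only [this]
    calc ((bad ⟨j, z, hzP⟩).card : ℝ) ≤
        3 * Real.exp (-(((intPts (Q j z) (2 * (n : ℝ) ^ 5)).card : ℝ) / p) / 2) *
          (p : ℝ) ^ (N + 1) := by
          convert h1
      _ ≤ 3 * Real.exp (-(1 / 4000 * N * prof t (pt j z) / 2)) * (p : ℝ) ^ (N + 1) := by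
          gcongr
      _ = _ := rfl
  obtain ⟨h, hh⟩ := exists_h_var p bad ε (fun i => by simp only [hε]; positivity) hbad
  set Mx : ℝ := (2 * (n : ℝ)) ^ t with hMx
  have hMx4 : 4 ≤ Mx := by
    have h1 : (4 : ℝ) ≤ 2 * n := by
      have : (2 : ℝ) ≤ n := by exact_mod_cast hn2
      linarith
    calc (4 : ℝ) ≤ 2 * n := h1
      _ = (2 * (n : ℝ)) ^ 1 := (pow_one _).symm
      _ ≤ Mx := pow_le_pow_right₀ (by linarith) hs.ht
  have hcardsum : ∑ j, ((P j).card : ℝ) ≤ Mx := by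
    calc ∑ j, ((P j).card : ℝ) ≤ ∑ _j : Fin t → Fin n, (2 : ℝ) ^ t := by
          refine Finset.sum_le_sum fun j _ => ?_
          exact_mod_cast (hPtree j).card_le
      _ = Mx := by
          rw [Finset.sum_const, nsmul_eq_mul, Finset.card_univ, hMx, mul_pow]
          simp only [Fintype.card_pi, Fintype.card_fin, prod_const, card_univ, Nat.cast_pow]
          ring
  have hIcard : (Fintype.card I : ℝ) ≤ Mx := by
    have e : Fintype.card I = ∑ j, (P j).card := by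
      have h1 : Fintype.card I = ∑ j : Fin t → Fin n, Fintype.card {z // z ∈ P j} :=
        Fintype.card_sigma
      rw [h1]
      exact Finset.sum_congr rfl fun j _ => Fintype.card_coe _
    rw [e]
    push_cast
    exact hcardsum
  -- densities of the uncovered sets
  set η : (Fin t → Fin n) → (Fin t → ℤ) → ℝ := fun j z =>
    Mx * (3 * Real.exp (-(1 / 4000 * N * prof t (pt j z) / 2))) with hη
  have hη0 : ∀ j z, 0 ≤ η j z := fun j z => by simp only [hη]; positivity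
  have hbad' : ∀ j, ∀ z ∈ P j, ((univ.filter (fun u : ZMod p =>
      hit p (intPts (Q j z) (2 * (n : ℝ) ^ 5)) h u = ∅)).card : ℝ) ≤ η j z * p := by
    intro j z hzP
    have h1 := hh ⟨j, z, hzP⟩
    have h2 : univ.filter (fun u : ZMod p => (h, u) ∈ bad ⟨j, z, hzP⟩) =
        univ.filter (fun u : ZMod p => hit p (intPts (Q j z) (2 * (n : ℝ) ^ 5)) h u = ∅) := by
      ext u
      simp only [hbaddef, mem_filter, mem_univ, true_and]
    rw [h2] at h1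
    refine h1.trans ?_
    simp only [hη, hε]
    gcongr
  -- products
  have hprod1 : ∀ j, (∏ z ∈ P j, (Mx * η j z)) * p < 1 := by
    intro j
    refine lt_of_le_of_lt ?_ hpη
    apply mul_le_mul_of_nonneg_right _ hp0.le
    have h1 := prod_bound (P j) (hPtree j).card_le (3 * Mx ^ 2) (1 / 4000 * N) m
      (by nlinarith) (fun z => prof t (pt j z)) (by positivity) (hθsum j)
    refine le_trans (le_of_eq ?_) h1
    refine Finset.prod_congr rfl fun z _ => ?_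
    simp only [hη]
    ring
  -- `h ≠ 0`
  have hne0 : h ≠ 0 := by
    intro h0
    have hj : ∃ j : Fin t → Fin n, True := ⟨fun _ => ⟨0, by omega⟩, trivial⟩
    obtain ⟨j, _⟩ := hj
    have h7 : (3 : ℝ) < p := by exact_mod_cast hp3
    have h8 : ∀ z ∈ P j, 1 / 2 ≤ η j z := by
      intro z hzP
      have h1 := hbad' j z hzP
      have h2 : (univ : Finset (ZMod p)).erase 0 ⊆
          univ.filter (fun u : ZMod p => hit p (intPts (Q j z) (2 * (n : ℝ) ^ 5)) h u = ∅) := by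
        intro u hu
        rw [mem_erase] at hu
        simp only [mem_filter, mem_univ, true_and]
        rw [Finset.eq_empty_iff_forall_notMem]
        intro s hs'
        rw [hit, mem_filter, h0] at hs'
        simp only [Pi.zero_apply, zero_mul, sum_const_zero] at hs'
        exact hu.1 hs'.2.symm
      have h4 := Finset.card_le_card h2
      rw [Finset.card_erase_of_mem (mem_univ _), card_univ, ZMod.card] at h4
      have h5 : ((p - 1 : ℕ) : ℝ) ≤ η j z * p := le_trans (by exact_mod_cast h4) h1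
      rw [Nat.cast_sub hp.one_lt.le] at h5
      push_cast at h5
      by_contra hcon
      push Not at hcon
      nlinarith only [h7, h5, hcon]
    have h9 : 1 ≤ ∏ z ∈ P j, (Mx * η j z) := by
      calc (1 : ℝ) = ∏ _z ∈ P j, (1 : ℝ) := by simp
        _ ≤ _ := Finset.prod_le_prod (fun z _ => by norm_num) (fun z hzP => by
          have := h8 z hzP
          nlinarith only [this, hMx4])
    have h10 := hprod1 j
    nlinarith only [h9, h10, h7]
  -- the second coordinate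
  set U : (Fin t → Fin n) → (Fin t → ℤ) → Finset (ZMod p) := fun j z =>
    univ.filter (fun u : ZMod p => hit p (intPts (Q j z) (2 * (n : ℝ) ^ 5)) h
      (u - ∑ a, h a * (w j z a : ZMod p)) = ∅) with hU
  have hUcard : ∀ j, ∀ z ∈ P j, ((U j z).card : ℝ) ≤ η j z * p := by
    intro j z hzP
    refine le_trans (le_of_eq ?_) (hbad' j z hzP)
    congr 1
    refine Finset.card_bij' (fun u _ => u - ∑ a, h a * (w j z a : ZMod p))
      (fun u _ => u + ∑ a, h a * (w j z a : ZMod p)) ?_ ?_ ?_ ?_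
    · intro u hu
      simp only [hU, mem_filter, mem_univ, true_and] at hu ⊢
      exact hu
    · intro u hu
      simp only [hU, mem_filter, mem_univ, true_and] at hu ⊢
      simpa only [add_sub_cancel_right] using hu
    · intro u _
      simp only [sub_add_cancel]
    · intro u _
      simp only [add_sub_cancel_right]
  obtain ⟨gg, hgg⟩ := exists_g_treeLike p D hpD Mx P hPne hPtree U η hη0 hUcard hcardsum
    (fun j => (hprod1 j).trans (by linarith only [hMx4]))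
  -- conclusion
  refine covFor_of_prod K 0 _ ((n : ℝ) ^ 5) hn5 ML hML p h hne0 gg ?_ ?_
  · have hdet : 0 < |ML.det| := abs_pos.2 hML
    refine hvol.trans (ENNReal.ofReal_le_ofReal ?_)
    have h1 : g ≤ 3 * (1 / 4000) * N * p / ((n : ℝ) ^ 5) ^ N := by
      rw [le_div_iff₀ (by positivity)]
      linarith only [hp2]
    calc W * g ≤ W * (3 * (1 / 4000) * N * p / ((n : ℝ) ^ 5) ^ N) := by gcongr
      _ = _ := by
        field_simp
  · intro y y'
    have h0 := step_cover2 hs.hn Kp A T (fun b hb => ?_)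
      (fun b hb a ha x hx x' hx' => hkey b hb a ha x hx x' hx') ML hzcov P hz Q w
      (fun j z hzP => (hQw j z hzP).2.1) p h gg ?_ y y'
    · obtain ⟨s, ζ, h1, h2⟩ := h0
      refine ⟨fun _ => s, fun _ => ζ, fun _ => h1, fun _ => h2, fun q _ _ => ?_⟩
      have : IsEmpty (Fin ⌈(0 : ℝ) * ((N + t : ℕ) : ℝ)⌉₊) := by
        simp only [zero_mul, Nat.ceil_zero]
        exact Fin.isEmpty
      exact linearIndependent_empty_type
    · obtain ⟨_, _, _, ⟨x₀, hx₀⟩, _⟩ := hT b hb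
      exact ⟨x₀ + 0, hx₀ 0 (fun i => ⟨le_rfl, hs.hρ.le⟩)⟩
    · intro j u
      obtain ⟨z, hzP, hz'⟩ := hgg j u
      refine ⟨z, hzP, ?_⟩
      simp only [hU, mem_filter, mem_univ, true_and] at hz'
      exact Finset.nonempty_iff_ne_empty.2 hz'

end Vale.Agent.P230.D
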