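import Vale.Agent.P230.MathlibUsed

namespace Vale.Agent.P230.D

open Finset

/-- `P` is tree-like: among points of `P` which agree in all coordinates above `a`, the coordinate
`a` takes at most two values, and these differ by at most `D`. -/
def TreeLike {ι : Type*} [LT ι] (D : ℕ) (P : Finset (ι → ℤ)) : Prop :=
  ∀ a : ι, ∀ z ∈ P, ∀ z' ∈ P, ∀ z'' ∈ P, (∀ b, a < b → z b = z' b) → (∀ b, a < b → z b = z'' b) →
    (z a = z' a ∨ z a = z'' a ∨ z' a = z'' a) ∧ |z a - z' a| ≤ D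

/-- forget the lowest coordinate -/
def tl {t : ℕ} (z : Fin (t + 1) → ℤ) : Fin t → ℤ := fun i => z i.succ

theorem TreeLike.image_tl {t D : ℕ} {P : Finset (Fin (t + 1) → ℤ)} (h : TreeLike D P) :
    TreeLike D (P.image tl) := by
  classical
  intro a z hz z' hz' z'' hz'' h1 h2
  obtain ⟨w, hw, rfl⟩ := mem_image.1 hz
  obtain ⟨w', hw', rfl⟩ := mem_image.1 hz'
  obtain ⟨w'', hw'', rfl⟩ := mem_image.1 hz''
  refine h a.succ w hw w' hw' w'' hw'' ?_ ?_
  · intro b hb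
    obtain ⟨c, rfl⟩ := Fin.exists_succ_eq.2 (Fin.ne_zero_of_lt hb)
    exact h1 c (Fin.succ_lt_succ_iff.1 hb)
  · intro b hb
    obtain ⟨c, rfl⟩ := Fin.exists_succ_eq.2 (Fin.ne_zero_of_lt hb)
    exact h2 c (Fin.succ_lt_succ_iff.1 hb)

theorem eq_of_tl {t : ℕ} {z w : Fin (t + 1) → ℤ} (h : tl z = tl w) (h0 : z 0 = w 0) : z = w := by
  funext i
  refine Fin.cases h0 (fun j => ?_) i
  exact congrFun h j

theorem TreeLike.fiber {t D : ℕ} {P : Finset (Fin (t + 1) → ℤ)} (h : TreeLike D P)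
    {z z' z'' : Fin (t + 1) → ℤ} (hz : z ∈ P) (hz' : z' ∈ P) (hz'' : z'' ∈ P)
    (h1 : tl z = tl z') (h2 : tl z = tl z'') :
    (z = z' ∨ z = z'' ∨ z' = z'') ∧ |z 0 - z' 0| ≤ D := by
  have h3 := h 0 z hz z' hz' z'' hz'' (by
    intro b hb
    obtain ⟨c, rfl⟩ := Fin.exists_succ_eq.2 (Fin.ne_zero_of_lt hb)
    exact congrFun h1 c) (by
    intro b hb
    obtain ⟨c, rfl⟩ := Fin.exists_succ_eq.2 (Fin.ne_zero_of_lt hb)
    exact congrFun h2 c)
  refine ⟨?_, h3.2⟩
  rcases h3.1 with h4 | h4 | h4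
  · exact Or.inl (eq_of_tl h1 h4)
  · exact Or.inr (Or.inl (eq_of_tl h2 h4))
  · exact Or.inr (Or.inr (eq_of_tl (h1.symm.trans h2) h4))

theorem TreeLike.card_fiber {t D : ℕ} {P : Finset (Fin (t + 1) → ℤ)} (h : TreeLike D P)
    (y : Fin t → ℤ) : (P.filter (fun z => tl z = y)).card ≤ 2 := by
  classical
  by_contra hcon
  push Not at hcon
  obtain ⟨z, z', z'', hz, hz', hz'', h1, h2, h3⟩ := Finset.two_lt_card_iff.1 hcon
  rw [mem_filter] at hz hz' hz''
  rcases (h.fiber hz.1 hz'.1 hz''.1 (hz.2.trans hz'.2.symm) (hz.2.trans hz''.2.symm)).1 with h4 | h4 | h4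
  · exact h1 h4
  · exact h2 h4
  · exact h3 h4

/-- a tree-like set has at most `2 ^ t` points -/
theorem TreeLike.card_le {D : ℕ} : ∀ {t : ℕ} {P : Finset (Fin t → ℤ)}, TreeLike D P →
    P.card ≤ 2 ^ t := by
  classical
  intro t
  induction t with
  | zero =>
    intro P _
    rw [pow_zero]
    exact Finset.card_le_one_of_subsingleton P
  | succ t ih =>
    intro P h
    have h1 := ih h.image_tl
    have h2 := Finset.card_le_mul_card_image (f := tl) P 2 (fun y _ => h.card_fiber y)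
    calc P.card ≤ 2 * (P.image tl).card := h2
      _ ≤ 2 * 2 ^ t := by gcongr
      _ = 2 ^ (t + 1) := by rw [pow_succ]; ring

end Vale.Agent.P230.D
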