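import Vale.Agent.P230.Bdl.B3
import Vale.Agent.P230.D.TreeLike

/-!
# Interfaces of the exact-order project: slices with a profile, lattices with weighted trees
-/

namespace Vale.Agent.P230.D

open MeasureTheory

/-- the Gaussian profile, `1` on the sphere of radius `√t` -/
noncomputable def prof (t : ℕ) (b : Fin t → ℝ) : ℝ := Real.exp ((t - ∑ i, b i ^ 2) / 2)

/-- the annulus `t ≤ |b|² ≤ 2t` -/
def Ann (t : ℕ) (b : Fin t → ℝ) : Prop := (t : ℝ) ≤ ∑ i, b i ^ 2 ∧ ∑ i, b i ^ 2 ≤ 2 * t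

/-- the geometric input of the last step (output of PART C): good coordinates whose slices over
the annulus are at least the Gaussian profile.  `W = C (2πe)^{t/2}` -/
def BallData2 (N t n : ℕ) (ρ W : ℝ) : Prop :=
  ∀ K₀ : Set (Fin (N + t) → ℝ), Convex ℝ K₀ → IsCompact K₀ → (interior K₀).Nonempty →
    ∃ (A₀ : Matrix (Fin (N + t)) (Fin (N + t)) ℝ) (v₀ : Fin (N + t) → ℝ)
      (T : (Fin t → ℝ) → Set (Fin N → ℝ)) (g : ℝ), A₀.det ≠ 0 ∧ 0 < g ∧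
      (∀ b : Fin t → ℝ, Ann t b →
        Convex ℝ (T b) ∧ IsCompact (T b) ∧ (∀ x ∈ T b, ∀ i, |x i| ≤ 1) ∧
        (∃ x₀ : Fin N → ℝ, ∀ x : Fin N → ℝ, (∀ i, 0 ≤ x i ∧ x i ≤ ρ) → x₀ + x ∈ T b) ∧
        ENNReal.ofReal (g * prof t b) ≤ volume (T b) ∧
        volume (T b) ≤ ENNReal.ofReal (2 ^ N * (g * prof t b))) ∧
      volume {x : Fin (N + t) → ℝ | A₀.mulVec x + v₀ ∈ K₀} ≤ ENNReal.ofReal (W * g) ∧
      ∀ b : Fin t → ℝ, Ann t b → ∀ a : Fin t → ℝ, Ann t a →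
        ∀ x ∈ T b, ∀ x' ∈ T a,
          A₀.mulVec (Fin.append (x + (1 / (n : ℝ)) • x') (b + (1 / (n : ℝ)) • a)) + v₀ ∈ K₀

/-- the lattice input of the last step (output of PART G for one `m`) -/
def LatticeData (t D : ℕ) (m : ℝ) (ML : Matrix (Fin t) (Fin t) ℝ) : Prop :=
  ∀ y : Fin t → ℝ, ∃ P : Finset (Fin t → ℤ), TreeLike D P ∧
    (∀ z ∈ P, Ann t (fun i => y i + ML.mulVec (fun a => (z a : ℝ)) i)) ∧
    m ≤ ∑ z ∈ P, prof t (fun i => y i + ML.mulVec (fun a => (z a : ℝ)) i)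

/-- THEOREM G (statement): the lattices.  `D ≤ exp t`. -/
def StmtG : Prop :=
  ∃ C : ℝ, 0 < C ∧ ∃ m₀ : ℝ, ∀ m : ℝ, m₀ ≤ m →
    ∃ (t D : ℕ) (ML : Matrix (Fin t) (Fin t) ℝ), 1 ≤ t ∧ (t : ℝ) ≤ Real.log m ^ 2 ∧
      (D : ℝ) ≤ Real.exp t ∧ ML.det ≠ 0 ∧
      (2 * Real.pi * Real.exp 1) ^ ((t : ℝ) / 2) ≤ C * m * |ML.det| ∧ LatticeData t D m ML

/-- PART C (statement): the geometric data for every convex body -/
def StmtC : Prop :=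
  ∃ C : ℝ, 0 < C ∧ ∃ t₀ : ℕ, ∀ t ≥ t₀, ∀ N n : ℕ, N + t = n → Real.exp ((t : ℝ) ^ 3) ≤ n →
    BallData2 N t n (1 / (8 * Real.sqrt t * (n : ℝ) ^ 2))
      (C * (2 * Real.pi * Real.exp 1) ^ ((t : ℝ) / 2))

end Vale.Agent.P230.D
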